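import Vale.Agent.Results.P060.Kneser

namespace Vale.Agent.Results.P060.KneserStable

open Vale.Agent.Results.P060.Kneser

/-- A set of points of the cycle `0, 1, ..., n-1, 0` is *stable* when it contains no two
cyclically consecutive points: no `x`, `x + 1`, and not both `0` and `n - 1`. -/
def IsStable {n : ℕ} (s : Finset (Fin n)) : Prop :=
  ∀ x ∈ s, ∀ y ∈ s, y.val ≠ x.val + 1 ∧ ¬ (x.val = 0 ∧ y.val + 1 = n)

/-- Branch sets that are edges: `T` pairwise disjoint edges `u i – v i`, any two of them joined by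
an edge, form a `K_T` minor. -/
theorem minor_of_edges {V : Type} (G : SimpleGraph V) (T : ℕ) (u v : Fin T → V)
    (huv : ∀ i, G.Adj (u i) (v i))
    (hne : ∀ i j, i < j → u i ≠ u j ∧ v i ≠ v j ∧ u i ≠ v j ∧ v i ≠ u j)
    (hadj : ∀ i j, i < j →
      G.Adj (u i) (u j) ∨ G.Adj (u i) (v j) ∨ G.Adj (v i) (u j) ∨ G.Adj (v i) (v j)) :
    HasCliqueMinor G T := by
  refine ⟨fun i => {u i, v i}, fun i => conn_pair G _ _ (huv i), ?_, ?_⟩
  · have key : ∀ i j, i < j → Disjoint ({u i, v i} : Set V) {u j, v j} := by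
      intro i j hij
      obtain ⟨h1, h2, h3, h4⟩ := hne i j hij
      rw [Set.disjoint_left]
      rintro x (rfl | hx) (h | h)
      · exact h1 h
      · exact h3 h
      · have hx' : x = v i := hx
        subst hx'
        exact h4 h
      · have hx' : x = v i := hx
        subst hx'
        exact h2 h
    intro i j hij
    rcases lt_or_gt_of_ne hij with h | h
    · exact key i j h
    · exact (key j i h).symm
  · have key : ∀ i j, i < j →
        ∃ x ∈ ({u i, v i} : Set V), ∃ y ∈ ({u j, v j} : Set V), G.Adj x y := by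
      intro i j hij
      rcases hadj i j hij with h | h | h | h
      · exact ⟨_, Or.inl rfl, _, Or.inl rfl, h⟩
      · exact ⟨_, Or.inl rfl, _, Or.inr rfl, h⟩
      · exact ⟨_, Or.inr rfl, _, Or.inl rfl, h⟩
      · exact ⟨_, Or.inr rfl, _, Or.inr rfl, h⟩
    intro i j hij
    rcases lt_or_gt_of_ne hij with h | h
    · exact key i j h
    · obtain ⟨x, hx, y, hy, hxy⟩ := key j i h
      exact ⟨y, hy, x, hx, hxy.symm⟩

/-- The natural number `x` as an element of `Fin n` (`0` if `x ≥ n`). -/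
def toFin {n : ℕ} (hn : 0 < n) (x : ℕ) : Fin n := if h : x < n then ⟨x, h⟩ else ⟨0, hn⟩

theorem toFin_val {n : ℕ} (hn : 0 < n) {x : ℕ} (h : x < n) : (toFin hn x).val = x := by
  unfold toFin
  rw [dif_pos h]

section Mk

variable {n k : ℕ}

/-- The `k`-set `{e 0, ..., e (k-1)}`. -/
def mk (hn : 0 < n) (e : ℕ → ℕ) (hb : ∀ j < k, e j < n)
    (hinj : ∀ j < k, ∀ j' < k, e j = e j' → j = j') : {s : Finset (Fin n) // s.card = k} :=
  ⟨Finset.univ.image (fun j : Fin k => toFin hn (e j.val)), by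
    rw [Finset.card_image_of_injective, Finset.card_univ, Fintype.card_fin]
    intro j j' hjj
    have h1 : (toFin hn (e j.val)).val = (toFin hn (e j'.val)).val := congrArg Fin.val hjj
    rw [toFin_val hn (hb _ j.isLt), toFin_val hn (hb _ j'.isLt)] at h1
    exact Fin.ext (hinj _ j.isLt _ j'.isLt h1)⟩

theorem mem_mk (hn : 0 < n) (e : ℕ → ℕ) (hb : ∀ j < k, e j < n)
    (hinj : ∀ j < k, ∀ j' < k, e j = e j' → j = j') (x : Fin n) :
    x ∈ (mk hn e hb hinj).1 ↔ ∃ j, j < k ∧ x.val = e j := by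
  unfold mk
  simp only [Finset.mem_image, Finset.mem_univ, true_and]
  constructor
  · rintro ⟨j, rfl⟩
    exact ⟨j.val, j.isLt, toFin_val hn (hb _ j.isLt)⟩
  · rintro ⟨j, hj, hx⟩
    refine ⟨⟨j, hj⟩, Fin.ext ?_⟩
    rw [toFin_val hn (hb _ hj)]
    exact hx.symm

theorem stable_mk (hn : 0 < n) (e : ℕ → ℕ) (hb : ∀ j < k, e j < n)
    (hinj : ∀ j < k, ∀ j' < k, e j = e j' → j = j')
    (hst : ∀ j < k, ∀ j' < k, e j' ≠ e j + 1 ∧ ¬ (e j = 0 ∧ e j' + 1 = n)) :
    IsStable (mk hn e hb hinj).1 := by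
  intro x hx y hy
  rw [mem_mk] at hx hy
  obtain ⟨j, hj, ex⟩ := hx
  obtain ⟨j', hj', ey⟩ := hy
  rw [ex, ey]
  exact hst j hj j' hj'

theorem disj_mk (hn : 0 < n) (e e' : ℕ → ℕ) (hb : ∀ j < k, e j < n)
    (hinj : ∀ j < k, ∀ j' < k, e j = e j' → j = j') (hb' : ∀ j < k, e' j < n)
    (hinj' : ∀ j < k, ∀ j' < k, e' j = e' j' → j = j')
    (hd : ∀ j < k, ∀ j' < k, e j ≠ e' j') :
    Disjoint (mk hn e hb hinj).1 (mk hn e' hb' hinj').1 := by
  rw [Finset.disjoint_left]
  intro x hx hy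
  rw [mem_mk] at hx hy
  obtain ⟨j, hj, ex⟩ := hx
  obtain ⟨j', hj', ey⟩ := hy
  exact hd j hj j' hj' (ex.symm.trans ey)

theorem ne_mk (hn : 0 < n) (e e' : ℕ → ℕ) (hb : ∀ j < k, e j < n)
    (hinj : ∀ j < k, ∀ j' < k, e j = e j' → j = j') (hb' : ∀ j < k, e' j < n)
    (hinj' : ∀ j < k, ∀ j' < k, e' j = e' j' → j = j')
    (hw : ∃ j, j < k ∧ ∀ j' < k, e j ≠ e' j') :
    mk hn e hb hinj ≠ mk hn e' hb' hinj' := by
  obtain ⟨j, hj, hw⟩ := hw
  intro heq
  have h1 : toFin hn (e j) ∈ (mk hn e hb hinj).1 :=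
    (mem_mk hn e hb hinj _).mpr ⟨j, hj, toFin_val hn (hb j hj)⟩
  rw [heq, mem_mk] at h1
  obtain ⟨j', hj', e1⟩ := h1
  rw [toFin_val hn (hb j hj)] at e1
  exact hw j' hj' e1

end Mk

/-- Elements of the first vertex of the `i`-th branch set: `{i} ∪ X` for `i ≤ t - 2`, and
`{1, t-1} ∪ (Y without its last point)` for `i = t - 1`; here `X = {t, t+2, ..., n-2}` and
`Y = {t+1, t+3, ..., n-1}`. -/
def eU (t i j : ℕ) : ℕ :=
  if i + 2 ≤ t then (if j = 0 then i else t + 2 * (j - 1))
  else (if j = 0 then 1 else if j = 1 then t - 1 else t + 2 * (j - 2) + 1)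

/-- Elements of the second vertex of the `i`-th branch set: `{i+1} ∪ Y` for `i ≤ t - 2`, and
`{0, 3} ∪ (X without its last point)` for `i = t - 1`. -/
def eV (t i j : ℕ) : ℕ :=
  if i + 2 ≤ t then (if j = 0 then i + 1 else t + 2 * (j - 1) + 1)
  else (if j = 0 then 0 else if j = 1 then 3 else t + 2 * (j - 2))

section Facts

variable {n k t : ℕ}

theorem bU (h : t + 2 * k = n + 2) (hk : 2 ≤ k) (ht : 5 ≤ t) (i : ℕ) (hi : i < t) :
    ∀ j < k, eU t i j < n := by
  intro j hj
  unfold eU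
  split_ifs <;> omega

theorem bV (h : t + 2 * k = n + 2) (hk : 2 ≤ k) (ht : 5 ≤ t) (i : ℕ) (hi : i < t) :
    ∀ j < k, eV t i j < n := by
  intro j hj
  unfold eV
  split_ifs <;> omega

theorem iU (ht : 5 ≤ t) (i : ℕ) (hi : i < t) :
    ∀ j < k, ∀ j' < k, eU t i j = eU t i j' → j = j' := by
  intro j hj j' hj' e
  unfold eU at e
  split_ifs at e <;> omega

theorem iV (ht : 5 ≤ t) (i : ℕ) (hi : i < t) :
    ∀ j < k, ∀ j' < k, eV t i j = eV t i j' → j = j' := by
  intro j hj j' hj' e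
  unfold eV at e
  split_ifs at e <;> omega

theorem sU (h : t + 2 * k = n + 2) (hk : 2 ≤ k) (ht : 5 ≤ t) (i : ℕ) (hi : i < t) :
    ∀ j < k, ∀ j' < k, eU t i j' ≠ eU t i j + 1 ∧ ¬ (eU t i j = 0 ∧ eU t i j' + 1 = n) := by
  intro j hj j' hj'
  unfold eU
  split_ifs <;> omega

theorem sV (h : t + 2 * k = n + 2) (hk : 2 ≤ k) (ht : 5 ≤ t) (i : ℕ) (hi : i < t) :
    ∀ j < k, ∀ j' < k, eV t i j' ≠ eV t i j + 1 ∧ ¬ (eV t i j = 0 ∧ eV t i j' + 1 = n) := by
  intro j hj j' hj'
  unfold eV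
  split_ifs <;> first | omega | contradiction | trivial | exact ⟨by omega, fun hh => hh.1⟩

theorem dUV (ht : 5 ≤ t) (i : ℕ) (hi : i < t) :
    ∀ j < k, ∀ j' < k, eU t i j ≠ eV t i j' := by
  intro j hj j' hj'
  unfold eU eV
  split_ifs <;> omega

theorem dUV' (ht : 5 ≤ t) (i i' : ℕ) (hii : i < i') (hi' : i' + 2 ≤ t) :
    ∀ j < k, ∀ j' < k, eU t i j ≠ eV t i' j' := by
  intro j hj j' hj'
  unfold eU eV
  split_ifs <;> omega

theorem dUU (ht : 5 ≤ t) (i i' : ℕ) (hii : i < i') (hi't : i' < t) (hi' : ¬ (i' + 2 ≤ t))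
    (hi1 : i ≠ 1) : ∀ j < k, ∀ j' < k, eU t i j ≠ eU t i' j' := by
  intro j hj j' hj'
  unfold eU
  split_ifs <;> omega

theorem dVV (ht : 5 ≤ t) (i i' : ℕ) (hii : i < i') (hi't : i' < t) (hi' : ¬ (i' + 2 ≤ t))
    (hi1 : i = 1) : ∀ j < k, ∀ j' < k, eV t i j ≠ eV t i' j' := by
  intro j hj j' hj'
  unfold eV
  split_ifs <;> omega

theorem nU (hk : 2 ≤ k) (ht : 5 ≤ t) (i i' : ℕ) (hii : i < i') (hi't : i' < t) :
    ∃ j, j < k ∧ ∀ j' < k, eU t i j ≠ eU t i' j' := by
  by_cases hi' : i' + 2 ≤ t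
  · refine ⟨0, by omega, fun j' hj' => ?_⟩
    unfold eU
    split_ifs <;> omega
  · refine ⟨1, by omega, fun j' hj' => ?_⟩
    unfold eU
    split_ifs <;> first | omega | contradiction

theorem nV (hk : 2 ≤ k) (ht : 5 ≤ t) (i i' : ℕ) (hii : i < i') (hi't : i' < t) :
    ∃ j, j < k ∧ ∀ j' < k, eV t i j ≠ eV t i' j' := by
  by_cases hi' : i' + 2 ≤ t
  · refine ⟨0, by omega, fun j' hj' => ?_⟩
    unfold eV
    split_ifs <;> omega
  · refine ⟨1, by omega, fun j' hj' => ?_⟩
    unfold eV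
    split_ifs <;> first | omega | contradiction

/-- For `i ≠ i'` the vertices `U i` and `V i'` differ: a witness in `U i` outside `V i'`, or a
witness in `V i'` outside `U i`. -/
theorem nUV (hk : 2 ≤ k) (ht : 5 ≤ t) (i i' : ℕ) (_hii : i ≠ i') (hit : i < t) (hi't : i' < t) :
    (∃ j, j < k ∧ ∀ j' < k, eU t i j ≠ eV t i' j') ∨
      (∃ j, j < k ∧ ∀ j' < k, eV t i' j ≠ eU t i j') := by
  by_cases hi : i + 2 ≤ t
  · by_cases hi' : i' + 2 ≤ t
    · left
      refine ⟨1, by omega, fun j' hj' => ?_⟩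
      unfold eU eV
      split_ifs <;> first | omega | contradiction
    · left
      refine ⟨k - 1, by omega, fun j' hj' => ?_⟩
      unfold eU eV
      split_ifs <;> omega
  · right
    refine ⟨k - 1, by omega, fun j' hj' => ?_⟩
    unfold eU eV
    split_ifs <;> omega

end Facts

theorem ne_of_disj {n k : ℕ} (hk : 1 ≤ k) (x y : {s : Finset (Fin n) // s.card = k})
    (hd : Disjoint x.1 y.1) : x ≠ y := by
  intro e
  rw [e] at hd
  have h1 : y.1 = ∅ := by simpa using hd
  have h0 : y.1.card = 0 := by rw [h1]; rfl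
  have := y.2
  omega

theorem adjW {n k : ℕ} (W : Set {s : Finset (Fin n) // s.card = k}) (x y : ↥W)
    (h : (kneser n k).Adj x.1 y.1) : ((kneser n k).induce W).Adj x y := h

theorem colorable_induce {n k : ℕ} (W : Set {s : Finset (Fin n) // s.card = k}) (c : ℕ)
    (h : (kneser n k).Colorable c) : ((kneser n k).induce W).Colorable c := by
  obtain ⟨C⟩ := h
  exact ⟨SimpleGraph.Coloring.mk (fun x : ↥W => C x.1)
    (fun {x y} hadj => C.valid (v := x.1) (w := y.1) hadj)⟩

theorem kneser_colorable_ge (n k s : ℕ) (hs : 1 ≤ s) (h : n + 2 ≤ 2 * k + s) :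
    (kneser n k).Colorable s := by
  by_cases h' : 1 ≤ k ∧ 2 * k ≤ n
  · exact (kneser_colorable n k h'.1 h'.2).mono (by omega)
  · exact ⟨SimpleGraph.Coloring.mk (fun _ => (⟨0, hs⟩ : Fin s))
      (fun {a b} hadj => absurd (adj_bound n k a b hadj) h')⟩

/-- Every induced subgraph of the Kneser graph `K(n,k)` that contains all stable `k`-sets
(`k ≥ 2`, `n ≥ 2k + 3`) has a `K_{n-2k+2}` minor. -/
theorem stable_minor (n k : ℕ) (hk : 2 ≤ k) (hn : 2 * k + 3 ≤ n)
    (W : Set {s : Finset (Fin n) // s.card = k}) (hW : ∀ v, IsStable v.1 → v ∈ W) :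
    HasCliqueMinor ((kneser n k).induce W) (n - 2 * k + 2) := by
  have h : (n - 2 * k + 2) + 2 * k = n + 2 := by omega
  have ht : 5 ≤ n - 2 * k + 2 := by omega
  have hn0 : 0 < n := by omega
  have hk1 : 1 ≤ k := by omega
  generalize n - 2 * k + 2 = t at h ht ⊢
  have hU : ∀ i : Fin t, mk hn0 (eU t i.val) (bU h hk ht i.val i.isLt) (iU ht i.val i.isLt) ∈ W :=
    fun i => hW _ (stable_mk hn0 _ _ _ (sU h hk ht i.val i.isLt))
  have hV : ∀ i : Fin t, mk hn0 (eV t i.val) (bV h hk ht i.val i.isLt) (iV ht i.val i.isLt) ∈ W :=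
    fun i => hW _ (stable_mk hn0 _ _ _ (sV h hk ht i.val i.isLt))
  apply minor_of_edges _ t (fun i => (⟨_, hU i⟩ : ↥W)) (fun i => (⟨_, hV i⟩ : ↥W))
  · intro i
    apply adjW
    have hd := disj_mk hn0 (eU t i.val) (eV t i.val) (bU h hk ht i.val i.isLt)
      (iU ht i.val i.isLt) (bV h hk ht i.val i.isLt) (iV ht i.val i.isLt) (dUV ht i.val i.isLt)
    exact ⟨ne_of_disj hk1 _ _ hd, hd⟩
  · intro i j hij
    have hij' : i.val < j.val := hij
    refine ⟨?_, ?_, ?_, ?_⟩
    · intro e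
      exact ne_mk hn0 (eU t i.val) (eU t j.val) (bU h hk ht i.val i.isLt) (iU ht i.val i.isLt)
        (bU h hk ht j.val j.isLt) (iU ht j.val j.isLt) (nU hk ht i.val j.val hij' j.isLt)
        (congrArg Subtype.val e)
    · intro e
      exact ne_mk hn0 (eV t i.val) (eV t j.val) (bV h hk ht i.val i.isLt) (iV ht i.val i.isLt)
        (bV h hk ht j.val j.isLt) (iV ht j.val j.isLt) (nV hk ht i.val j.val hij' j.isLt)
        (congrArg Subtype.val e)
    · intro e
      rcases nUV hk ht i.val j.val (by omega) i.isLt j.isLt with hw | hw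
      · exact ne_mk hn0 (eU t i.val) (eV t j.val) (bU h hk ht i.val i.isLt) (iU ht i.val i.isLt)
          (bV h hk ht j.val j.isLt) (iV ht j.val j.isLt) hw (congrArg Subtype.val e)
      · exact ne_mk hn0 (eV t j.val) (eU t i.val) (bV h hk ht j.val j.isLt) (iV ht j.val j.isLt)
          (bU h hk ht i.val i.isLt) (iU ht i.val i.isLt) hw (congrArg Subtype.val e).symm
    · intro e
      rcases nUV hk ht j.val i.val (by omega) j.isLt i.isLt with hw | hw
      · exact ne_mk hn0 (eU t j.val) (eV t i.val) (bU h hk ht j.val j.isLt) (iU ht j.val j.isLt)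
          (bV h hk ht i.val i.isLt) (iV ht i.val i.isLt) hw (congrArg Subtype.val e).symm
      · exact ne_mk hn0 (eV t i.val) (eU t j.val) (bV h hk ht i.val i.isLt) (iV ht i.val i.isLt)
          (bU h hk ht j.val j.isLt) (iU ht j.val j.isLt) hw (congrArg Subtype.val e)
  · intro i j hij
    have hij' : i.val < j.val := hij
    by_cases hj : j.val + 2 ≤ t
    · right; left
      apply adjW
      have hd := disj_mk hn0 (eU t i.val) (eV t j.val) (bU h hk ht i.val i.isLt)
        (iU ht i.val i.isLt) (bV h hk ht j.val j.isLt) (iV ht j.val j.isLt)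
        (dUV' ht i.val j.val hij' hj)
      exact ⟨ne_of_disj hk1 _ _ hd, hd⟩
    · by_cases hi1 : i.val = 1
      · right; right; right
        apply adjW
        have hd := disj_mk hn0 (eV t i.val) (eV t j.val) (bV h hk ht i.val i.isLt)
          (iV ht i.val i.isLt) (bV h hk ht j.val j.isLt) (iV ht j.val j.isLt)
          (dVV ht i.val j.val hij' j.isLt hj hi1)
        exact ⟨ne_of_disj hk1 _ _ hd, hd⟩
      · left
        apply adjW
        have hd := disj_mk hn0 (eU t i.val) (eU t j.val) (bU h hk ht i.val i.isLt)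
          (iU ht i.val i.isLt) (bU h hk ht j.val j.isLt) (iU ht j.val j.isLt)
          (dUU ht i.val j.val hij' j.isLt hj hi1)
        exact ⟨ne_of_disj hk1 _ _ hd, hd⟩

/-- Branch sets that are single vertices or edges. -/
theorem minor_of_pairs {V : Type} (G : SimpleGraph V) (T : ℕ) (u v : Fin T → V)
    (huv : ∀ i, u i = v i ∨ G.Adj (u i) (v i))
    (hne : ∀ i j, i < j → u i ≠ u j ∧ v i ≠ v j ∧ u i ≠ v j ∧ v i ≠ u j)
    (hadj : ∀ i j, i < j →
      G.Adj (u i) (u j) ∨ G.Adj (u i) (v j) ∨ G.Adj (v i) (u j) ∨ G.Adj (v i) (v j)) :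
    HasCliqueMinor G T := by
  refine ⟨fun i => {u i, v i}, fun i => ?_, ?_, ?_⟩
  · rcases huv i with h | h
    · have hs : ({u i, v i} : Set V) = {v i} := by rw [h]; exact Set.pair_eq_singleton _
      show (G.induce ({u i, v i} : Set V)).Connected
      rw [hs]
      exact conn_single G _
    · exact conn_pair G _ _ h
  · have key : ∀ i j, i < j → Disjoint ({u i, v i} : Set V) {u j, v j} := by
      intro i j hij
      obtain ⟨h1, h2, h3, h4⟩ := hne i j hij
      rw [Set.disjoint_left]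
      rintro x (rfl | hx) (h | h)
      · exact h1 h
      · exact h3 h
      · have hx' : x = v i := hx
        subst hx'
        exact h4 h
      · have hx' : x = v i := hx
        subst hx'
        exact h2 h
    intro i j hij
    rcases lt_or_gt_of_ne hij with h | h
    · exact key i j h
    · exact (key j i h).symm
  · have key : ∀ i j, i < j →
        ∃ x ∈ ({u i, v i} : Set V), ∃ y ∈ ({u j, v j} : Set V), G.Adj x y := by
      intro i j hij
      rcases hadj i j hij with h | h | h | h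
      · exact ⟨_, Or.inl rfl, _, Or.inl rfl, h⟩
      · exact ⟨_, Or.inl rfl, _, Or.inr rfl, h⟩
      · exact ⟨_, Or.inr rfl, _, Or.inl rfl, h⟩
      · exact ⟨_, Or.inr rfl, _, Or.inr rfl, h⟩
    intro i j hij
    rcases lt_or_gt_of_ne hij with h | h
    · exact key i j h
    · obtain ⟨x, hx, y, hy, hxy⟩ := key j i h
      exact ⟨y, hy, x, hx, hxy.symm⟩

/-- Elements of the set of all even (`par = 0`) or all odd (`par = 1`) points `2m + par`,
`0 ≤ m ≤ k`, without the point `2j + par`. -/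
def eP (par j m : ℕ) : ℕ := (if m < j then 2 * m else 2 * m + 2) + par

section FactsP

variable {n k : ℕ}

theorem bP (hn : n = 2 * k ∨ n = 2 * k + 2) (par j : ℕ) (hpar : par ≤ 1)
    (hj : n = 2 * k → k ≤ j) : ∀ m < k, eP par j m < n := by
  intro m hm
  unfold eP
  split_ifs <;> omega

theorem iP (par j : ℕ) : ∀ m < k, ∀ m' < k, eP par j m = eP par j m' → m = m' := by
  intro m hm m' hm' e
  unfold eP at e
  split_ifs at e <;> omega

theorem sP (hn : n = 2 * k ∨ n = 2 * k + 2) (par j : ℕ) (hpar : par ≤ 1) :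
    ∀ m < k, ∀ m' < k,
      eP par j m' ≠ eP par j m + 1 ∧ ¬ (eP par j m = 0 ∧ eP par j m' + 1 = n) := by
  intro m hm m' hm'
  unfold eP
  split_ifs <;> omega

theorem dP (par par' j j' : ℕ) (hpar : par ≤ 1) (hpar' : par' ≤ 1) (hne : par ≠ par') :
    ∀ m < k, ∀ m' < k, eP par j m ≠ eP par' j' m' := by
  intro m hm m' hm'
  unfold eP
  split_ifs <;> omega

theorem nP (par j j' : ℕ) (hj : j ≤ k) (hj' : j' ≤ k) (hne : j ≠ j') :
    ∃ m, m < k ∧ ∀ m' < k, eP par j m ≠ eP par j' m' := by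
  by_cases h : j' < j
  · refine ⟨j', by omega, fun m' hm' => ?_⟩
    unfold eP
    split_ifs <;> omega
  · refine ⟨j' - 1, by omega, fun m' hm' => ?_⟩
    unfold eP
    split_ifs <;> omega

end FactsP

/-- Elements of the `m`-th vertex of the odd cycle `SG(2k+1,k)`: `m+1, m+3, ..., m+2k-1`
modulo `n`. -/
def eC (n m j : ℕ) : ℕ := if m + 2 * j + 1 < n then m + 2 * j + 1 else m + 2 * j + 1 - n

section FactsC

variable {n k : ℕ}

theorem bC (hn : n = 2 * k + 1) (m : ℕ) (_hm : m < n) : ∀ j < k, eC n m j < n := by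
  intro j hj
  unfold eC
  split_ifs <;> omega

theorem iC (hn : n = 2 * k + 1) (m : ℕ) (_hm : m < n) :
    ∀ j < k, ∀ j' < k, eC n m j = eC n m j' → j = j' := by
  intro j hj j' hj' e
  unfold eC at e
  split_ifs at e <;> omega

theorem sC (hn : n = 2 * k + 1) (m : ℕ) (_hm : m < n) :
    ∀ j < k, ∀ j' < k, eC n m j' ≠ eC n m j + 1 ∧ ¬ (eC n m j = 0 ∧ eC n m j' + 1 = n) := by
  intro j hj j' hj'
  unfold eC
  split_ifs <;> first | omega | exact ⟨by omega, fun hh => hh.1⟩

/-- Consecutive vertices of the cycle are disjoint. -/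
theorem dC (hn : n = 2 * k + 1) (m : ℕ) (_hm : m + 1 < n) :
    ∀ j < k, ∀ j' < k, eC n m j ≠ eC n (m + 1) j' := by
  intro j hj j' hj'
  unfold eC
  split_ifs <;> omega

/-- The last vertex and the first vertex are disjoint. -/
theorem dC0 (hn : n = 2 * k + 1) : ∀ j < k, ∀ j' < k, eC n (2 * k) j ≠ eC n 0 j' := by
  intro j hj j' hj'
  unfold eC
  split_ifs <;> omega

/-- The vertex `0` differs from the vertices `2, ..., 2k`. -/
theorem nC0 (hn : n = 2 * k + 1) (m' : ℕ) (h2 : 2 ≤ m') (hm' : m' ≤ 2 * k) :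
    ∃ j, j < k ∧ ∀ j' < k, eC n 0 j ≠ eC n m' j' := by
  refine ⟨(m' - 1) / 2, by omega, fun j' hj' => ?_⟩
  unfold eC
  split_ifs <;> omega

/-- The vertex `1` differs from the vertices `2, ..., 2k`. -/
theorem nC1 (hn : n = 2 * k + 1) (m' : ℕ) (h2 : 2 ≤ m') (hm' : m' ≤ 2 * k) :
    ∃ j, j < k ∧ ∀ j' < k, eC n 1 j ≠ eC n m' j' := by
  refine ⟨(m' - 2) / 2, by omega, fun j' hj' => ?_⟩
  unfold eC
  split_ifs <;> omega

end FactsC


/-- Two adjacent vertices and a connected set joined to both give a `K_3` minor. -/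
theorem minor_three {V : Type} (G : SimpleGraph V) (a b : V) (C : Set V) (hab : G.Adj a b)
    (hC : (G.induce C).Connected) (ha : a ∉ C) (hb : b ∉ C) (hac : ∃ y ∈ C, G.Adj a y)
    (hbc : ∃ y ∈ C, G.Adj b y) : HasCliqueMinor G 3 := by
  obtain ⟨y, hy, hay⟩ := hac
  obtain ⟨z, hz, hbz⟩ := hbc
  refine ⟨fun i => if i.val = 0 then {a} else if i.val = 1 then {b} else C, ?_, ?_, ?_⟩
  · intro i
    fin_cases i
    · exact conn_single G a
    · exact conn_single G b
    · exact hC
  · intro i j hij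
    fin_cases i <;> fin_cases j
    · exact absurd rfl hij
    · exact Set.disjoint_singleton.mpr hab.ne
    · exact Set.disjoint_singleton_left.mpr ha
    · exact Set.disjoint_singleton.mpr hab.ne.symm
    · exact absurd rfl hij
    · exact Set.disjoint_singleton_left.mpr hb
    · exact Set.disjoint_singleton_right.mpr ha
    · exact Set.disjoint_singleton_right.mpr hb
    · exact absurd rfl hij
  · intro i j hij
    fin_cases i <;> fin_cases j
    · exact absurd rfl hij
    · exact ⟨a, rfl, b, rfl, hab⟩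
    · exact ⟨a, rfl, y, hy, hay⟩
    · exact ⟨b, rfl, a, rfl, hab.symm⟩
    · exact absurd rfl hij
    · exact ⟨b, rfl, z, hz, hbz⟩
    · exact ⟨y, hy, a, rfl, hay.symm⟩
    · exact ⟨z, hz, b, rfl, hbz.symm⟩
    · exact absurd rfl hij

section Small

variable {n k : ℕ}

/-- The vertex all points of parity `par` except `2j + par`. -/
def vP (W : Set {s : Finset (Fin n) // s.card = k}) (hW : ∀ v, IsStable v.1 → v ∈ W)
    (hn0 : 0 < n) (hn : n = 2 * k ∨ n = 2 * k + 2) (par j : ℕ) (hpar : par ≤ 1)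
    (hj : n = 2 * k → k ≤ j) : ↥W :=
  ⟨mk hn0 (eP par j) (bP hn par j hpar hj) (iP par j),
    hW _ (stable_mk hn0 _ _ _ (sP hn par j hpar))⟩

theorem vP_adj (W : Set {s : Finset (Fin n) // s.card = k}) (hW : ∀ v, IsStable v.1 → v ∈ W)
    (hk : 1 ≤ k) (hn0 : 0 < n) (hn : n = 2 * k ∨ n = 2 * k + 2) (par j par' j' : ℕ)
    (hpar : par ≤ 1) (hj : n = 2 * k → k ≤ j) (hpar' : par' ≤ 1) (hj' : n = 2 * k → k ≤ j')
    (hne : par ≠ par') :
    ((kneser n k).induce W).Adj (vP W hW hn0 hn par j hpar hj) (vP W hW hn0 hn par' j' hpar' hj') := by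
  apply adjW
  have hd := disj_mk hn0 (eP par j) (eP par' j') (bP hn par j hpar hj) (iP par j)
    (bP hn par' j' hpar' hj') (iP par' j') (dP par par' j j' hpar hpar' hne)
  exact ⟨ne_of_disj hk _ _ hd, hd⟩

theorem vP_ne (W : Set {s : Finset (Fin n) // s.card = k}) (hW : ∀ v, IsStable v.1 → v ∈ W)
    (hk : 1 ≤ k) (hn0 : 0 < n) (hn : n = 2 * k ∨ n = 2 * k + 2) (par j par' j' : ℕ)
    (hpar : par ≤ 1) (hj : n = 2 * k → k ≤ j) (hpar' : par' ≤ 1) (hj' : n = 2 * k → k ≤ j')
    (hjk : j ≤ k) (hjk' : j' ≤ k) (hne : par ≠ par' ∨ j ≠ j') :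
    vP W hW hn0 hn par j hpar hj ≠ vP W hW hn0 hn par' j' hpar' hj' := by
  by_cases hp : par = par'
  · subst hp
    have hjj : j ≠ j' := hne.resolve_left (fun h => h rfl)
    intro e
    exact ne_mk hn0 (eP par j) (eP par j') (bP hn par j hpar hj) (iP par j)
      (bP hn par j' hpar' hj') (iP par j') (nP par j j' hjk hjk' hjj) (congrArg Subtype.val e)
  · exact (vP_adj W hW hk hn0 hn par j par' j' hpar hj hpar' hj' hp).ne

theorem vP_congr (W : Set {s : Finset (Fin n) // s.card = k}) (hW : ∀ v, IsStable v.1 → v ∈ W)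
    (hn0 : 0 < n) (hn : n = 2 * k ∨ n = 2 * k + 2) (par par' j : ℕ)
    (hpar : par ≤ 1) (hpar' : par' ≤ 1) (hj : n = 2 * k → k ≤ j) (e : par = par') :
    vP W hW hn0 hn par j hpar hj = vP W hW hn0 hn par' j hpar' hj := by
  subst e
  rfl

/-- `n = 2k`: the two vertices all even points and all odd points are adjacent. -/
theorem minor_two (k : ℕ) (hk : 1 ≤ k) (W : Set {s : Finset (Fin (2 * k)) // s.card = k})
    (hW : ∀ v, IsStable v.1 → v ∈ W) :
    HasCliqueMinor ((kneser (2 * k) k).induce W) 2 := by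
  have hn0 : 0 < 2 * k := by omega
  apply minor_of_clique _ 2
    (fun i : Fin 2 => vP W hW hn0 (Or.inl rfl) i.val k (by have := i.isLt; omega) (fun _ => le_refl k))
  intro i j hij
  exact vP_adj W hW hk hn0 (Or.inl rfl) _ _ _ _ _ _ _ _ (fun e => hij (Fin.ext e))

/-- Parities and omitted points for the `K_4` model. -/
def pu (i : Fin 4) : ℕ := if i.val = 1 then 1 else 0

def pv (i : Fin 4) : ℕ := if i.val = 0 then 0 else 1

def ju (k : ℕ) (i : Fin 4) : ℕ := if i.val ≤ 1 then k else if i.val = 2 then k - 1 else k - 2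

theorem pu_pv : ∀ i j : Fin 4, i < j → pu i ≠ pu j ∨ pu i ≠ pv j := by decide

theorem pu_le (i : Fin 4) : pu i ≤ 1 := by
  unfold pu
  split_ifs <;> omega

theorem pv_le (i : Fin 4) : pv i ≤ 1 := by
  unfold pv
  split_ifs <;> omega

theorem ju_le (k : ℕ) (i : Fin 4) : ju k i ≤ k := by
  unfold ju
  split_ifs <;> omega

theorem ju_ne (k : ℕ) (hk : 2 ≤ k) (i j : Fin 4) (hij : i < j) (h : ¬ (i.val = 0 ∧ j.val = 1)) :
    ju k i ≠ ju k j := by
  have h1 : i.val < j.val := hij
  have := j.isLt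
  unfold ju
  split_ifs <;> omega

/-- `n = 2k + 2`, `k ≥ 2`: a `K_4` minor inside the complete bipartite graph between the sets of
even points and the sets of odd points. -/
theorem minor_four (k : ℕ) (hk : 2 ≤ k) (W : Set {s : Finset (Fin (2 * k + 2)) // s.card = k})
    (hW : ∀ v, IsStable v.1 → v ∈ W) :
    HasCliqueMinor ((kneser (2 * k + 2) k).induce W) 4 := by
  have hn0 : 0 < 2 * k + 2 := by omega
  have hk1 : 1 ≤ k := by omega
  have hv : ∀ j : ℕ, 2 * k + 2 = 2 * k → k ≤ j := fun j h => by omega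
  apply minor_of_pairs _ 4
    (fun i => vP W hW hn0 (Or.inr rfl) (pu i) (ju k i) (pu_le i) (hv _))
    (fun i => vP W hW hn0 (Or.inr rfl) (pv i) (ju k i) (pv_le i) (hv _))
  · intro i
    by_cases h : pu i = pv i
    · left
      exact vP_congr W hW hn0 (Or.inr rfl) _ _ _ _ _ _ h
    · right
      exact vP_adj W hW hk1 hn0 (Or.inr rfl) _ _ _ _ _ _ _ _ h
  · intro i j hij
    have h1 : i.val < j.val := hij
    have hj4 := j.isLt
    have key : ∀ (p p' : ℕ) (hp : p ≤ 1) (hp' : p' ≤ 1), (i.val = 0 → j.val = 1 → p ≠ p') →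
        vP W hW hn0 (Or.inr rfl) p (ju k i) hp (hv _)
          ≠ vP W hW hn0 (Or.inr rfl) p' (ju k j) hp' (hv _) := by
      intro p p' hp hp' hpp
      apply vP_ne W hW hk1 hn0 (Or.inr rfl) _ _ _ _ _ _ _ _ (ju_le k i) (ju_le k j)
      by_cases h01 : i.val = 0 ∧ j.val = 1
      · left
        exact hpp h01.1 h01.2
      · right
        exact ju_ne k hk i j hij h01
    refine ⟨key _ _ _ _ ?_, key _ _ _ _ ?_, key _ _ _ _ ?_, key _ _ _ _ ?_⟩
    · intro h0 h1'
      unfold pu
      split_ifs <;> omega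
    · intro h0 h1'
      unfold pv
      split_ifs <;> omega
    · intro h0 h1'
      unfold pu pv
      split_ifs <;> omega
    · intro h0 h1'
      unfold pu pv
      split_ifs
      omega
  · intro i j hij
    rcases pu_pv i j hij with h | h
    · left
      exact vP_adj W hW hk1 hn0 (Or.inr rfl) _ _ _ _ _ _ _ _ h
    · right; left
      exact vP_adj W hW hk1 hn0 (Or.inr rfl) _ _ _ _ _ _ _ _ h

end Small

section Cycle

variable {n k : ℕ}

/-- The `m`-th vertex of the odd cycle `SG(2k+1,k)`. -/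
def vC (W : Set {s : Finset (Fin n) // s.card = k}) (hW : ∀ v, IsStable v.1 → v ∈ W)
    (hn0 : 0 < n) (hn : n = 2 * k + 1) (m : ℕ) (hm : m < n) : ↥W :=
  ⟨mk hn0 (eC n m) (bC hn m hm) (iC hn m hm), hW _ (stable_mk hn0 _ _ _ (sC hn m hm))⟩

theorem vC_adj (W : Set {s : Finset (Fin n) // s.card = k}) (hW : ∀ v, IsStable v.1 → v ∈ W)
    (hk : 1 ≤ k) (hn0 : 0 < n) (hn : n = 2 * k + 1) (m : ℕ) (hm : m + 1 < n) :
    ((kneser n k).induce W).Adj (vC W hW hn0 hn m (by omega)) (vC W hW hn0 hn (m + 1) hm) := by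
  apply adjW
  have hd := disj_mk hn0 (eC n m) (eC n (m + 1)) (bC hn m (by omega)) (iC hn m (by omega))
    (bC hn (m + 1) hm) (iC hn (m + 1) hm) (dC hn m hm)
  exact ⟨ne_of_disj hk _ _ hd, hd⟩

theorem vC_adj0 (W : Set {s : Finset (Fin n) // s.card = k}) (hW : ∀ v, IsStable v.1 → v ∈ W)
    (hk : 1 ≤ k) (hn0 : 0 < n) (hn : n = 2 * k + 1) :
    ((kneser n k).induce W).Adj (vC W hW hn0 hn (2 * k) (by omega)) (vC W hW hn0 hn 0 hn0) := by
  apply adjW
  have hd := disj_mk hn0 (eC n (2 * k)) (eC n 0) (bC hn (2 * k) (by omega))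
    (iC hn (2 * k) (by omega)) (bC hn 0 hn0) (iC hn 0 hn0) (dC0 hn)
  exact ⟨ne_of_disj hk _ _ hd, hd⟩

end Cycle

/-- `n = 2k + 1`, `k ≥ 2`: the odd cycle of the sets `{m+1, m+3, ..., m+2k-1}` gives a `K_3`
minor. -/
theorem minor_three_cycle (k : ℕ) (hk : 2 ≤ k)
    (W : Set {s : Finset (Fin (2 * k + 1)) // s.card = k}) (hW : ∀ v, IsStable v.1 → v ∈ W) :
    HasCliqueMinor ((kneser (2 * k + 1) k).induce W) 3 := by
  have hn0 : 0 < 2 * k + 1 := by omega
  have hk1 : 1 ≤ k := by omega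
  let C : Set ↥W := {x | ∃ m, ∃ hm : m < 2 * k + 1, 2 ≤ m ∧ x = vC W hW hn0 rfl m hm}
  have hmem : ∀ m (hm : m < 2 * k + 1), 2 ≤ m → vC W hW hn0 rfl m hm ∈ C :=
    fun m hm h2 => ⟨m, hm, h2, rfl⟩
  apply minor_three _ (vC W hW hn0 rfl 0 (by omega)) (vC W hW hn0 rfl 1 (by omega)) C
  · exact vC_adj W hW hk1 hn0 rfl 0 (by omega)
  · have key : ∀ m (hm : m < 2 * k + 1) (h2 : 2 ≤ m),
        (((kneser (2 * k + 1) k).induce W).induce C).Reachable
          ⟨vC W hW hn0 rfl 2 (by omega), hmem 2 (by omega) (le_refl 2)⟩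
          ⟨vC W hW hn0 rfl m hm, hmem m hm h2⟩ := by
      intro m
      induction m with
      | zero => intro hm h2; omega
      | succ m ih =>
        intro hm h2
        by_cases h : m + 1 = 2
        · have hm1 : m = 1 := by omega
          subst hm1
          exact SimpleGraph.Reachable.refl _
        · have h2' : 2 ≤ m := by omega
          have hadj : (((kneser (2 * k + 1) k).induce W).induce C).Adj
              ⟨vC W hW hn0 rfl m (by omega), hmem m (by omega) h2'⟩
              ⟨vC W hW hn0 rfl (m + 1) hm, hmem (m + 1) hm h2⟩ :=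
            vC_adj W hW hk1 hn0 rfl m hm
          exact (ih (by omega) h2').trans hadj.reachable
    have hne : Nonempty ↥C := ⟨⟨_, hmem 2 (by omega) (le_refl 2)⟩⟩
    refine ⟨fun x y => ?_⟩
    obtain ⟨x, mx, hmx, h2x, rfl⟩ := x
    obtain ⟨y, my, hmy, h2y, rfl⟩ := y
    exact (key mx hmx h2x).symm.trans (key my hmy h2y)
  · rintro ⟨m, hm, h2, e⟩
    exact ne_mk hn0 (eC _ 0) (eC _ m) (bC rfl 0 (by omega)) (iC rfl 0 (by omega)) (bC rfl m hm)
      (iC rfl m hm) (nC0 rfl m h2 (by omega)) (congrArg Subtype.val e)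
  · rintro ⟨m, hm, h2, e⟩
    exact ne_mk hn0 (eC _ 1) (eC _ m) (bC rfl 1 (by omega)) (iC rfl 1 (by omega)) (bC rfl m hm)
      (iC rfl m hm) (nC1 rfl m h2 (by omega)) (congrArg Subtype.val e)
  · exact ⟨vC W hW hn0 rfl (2 * k) (by omega), hmem (2 * k) (by omega) (by omega),
      (vC_adj0 W hW hk1 hn0 rfl).symm⟩
  · exact ⟨vC W hW hn0 rfl 2 (by omega), hmem 2 (by omega) (le_refl 2),
      vC_adj W hW hk1 hn0 rfl 1 (by omega)⟩

/-- The single point `i`. -/
def eS (i : ℕ) (_j : ℕ) : ℕ := i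

/-- `k = 1`: the complete graph on the `n ≥ 2` singletons. -/
theorem minor_k_one (n : ℕ) (hn : 2 ≤ n) (W : Set {s : Finset (Fin n) // s.card = 1})
    (hW : ∀ v, IsStable v.1 → v ∈ W) : HasCliqueMinor ((kneser n 1).induce W) n := by
  have hn0 : 0 < n := by omega
  have hb : ∀ i : Fin n, ∀ j < 1, eS i.val j < n := fun i j _ => i.isLt
  have hi : ∀ i : Fin n, ∀ j < 1, ∀ j' < 1, eS i.val j = eS i.val j' → j = j' :=
    fun i j hj j' hj' _ => by omega
  have hs : ∀ i : Fin n, IsStable (mk hn0 (eS i.val) (hb i) (hi i)).1 := fun i =>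
    stable_mk hn0 _ _ _ (fun j _ j' _ => by unfold eS; omega)
  apply minor_of_clique _ n (fun i => (⟨mk hn0 (eS i.val) (hb i) (hi i), hW _ (hs i)⟩ : ↥W))
  intro i j hij
  apply adjW
  have hd := disj_mk hn0 (eS i.val) (eS j.val) (hb i) (hi i) (hb j) (hi j)
    (fun m _ m' _ => by unfold eS; exact fun e => hij (Fin.ext e))
  exact ⟨ne_of_disj (le_refl 1) _ _ hd, hd⟩

/-- Every induced subgraph of `K(n,k)` that contains all stable `k`-sets (`k ≥ 1`, `n ≥ 2k`) has
a `K_{n-2k+2}` minor. -/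
theorem stable_minor_all (n k : ℕ) (hk : 1 ≤ k) (hn : 2 * k ≤ n)
    (W : Set {s : Finset (Fin n) // s.card = k}) (hW : ∀ v, IsStable v.1 → v ∈ W) :
    HasCliqueMinor ((kneser n k).induce W) (n - 2 * k + 2) := by
  by_cases hk1 : k = 1
  · subst hk1
    have e : n - 2 * 1 + 2 = n := by omega
    rw [e]
    exact minor_k_one n (by omega) W hW
  · have hk2 : 2 ≤ k := by omega
    by_cases h5 : 2 * k + 3 ≤ n
    · exact stable_minor n k hk2 h5 W hW
    · by_cases h2 : n = 2 * k
      · subst h2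
        have e : 2 * k - 2 * k + 2 = 2 := by omega
        rw [e]
        exact minor_two k hk W hW
      · by_cases h3 : n = 2 * k + 1
        · subst h3
          have e : 2 * k + 1 - 2 * k + 2 = 3 := by omega
          rw [e]
          exact minor_three_cycle k hk2 W hW
        · have h4 : n = 2 * k + 2 := by omega
          subst h4
          have e : 2 * k + 2 - 2 * k + 2 = 4 := by omega
          rw [e]
          exact minor_four k hk2 W hW

theorem kneser_colorable_of_not (n k s : ℕ) (hs : 1 ≤ s) (h : ¬ (1 ≤ k ∧ 2 * k ≤ n)) :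
    (kneser n k).Colorable s :=
  ⟨SimpleGraph.Coloring.mk (fun _ => (⟨0, hs⟩ : Fin s))
    (fun {a b} hadj => absurd (adj_bound n k a b hadj) h)⟩

/-- **Hadwiger's conjecture for the Schrijver graphs and for every induced graph between the
Schrijver graph and the Kneser graph.**

`kneser n k` is the Kneser graph (the `k`-subsets of `Fin n`, adjacent when disjoint) and
`HasCliqueMinor G t` the `K_t`-minor relation of the problem (both from `P060.Kneser`). A `k`-set
is *stable* (`IsStable`) when it contains no two cyclically consecutive points of the cycle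
`0, 1, ..., n-1, 0`. For a set `W` of vertices of `K(n,k)` that contains all stable `k`-sets,
`(kneser n k).induce W` is the subgraph of `K(n,k)` induced on `W`; for `W` = the stable sets it
is the Schrijver graph `SG(n,k)` (a vertex-critical subgraph of `K(n,k)` with the same chromatic
number `n-2k+2`), for `W` = everything it is `K(n,k)`.

(1) If `k ≥ 1` and `n ≥ 2k`, then `(kneser n k).induce W` is `(n-2k+2)`-colourable and has a
`K_{n-2k+2}` minor.

(2) For all `n`, `k` and `s ≥ 1`: if `(kneser n k).induce W` has no `K_{s+1}` minor, then it is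
`s`-colourable. -/
theorem result :
    (∀ n k : ℕ, 1 ≤ k → 2 * k ≤ n → ∀ W : Set {S : Finset (Fin n) // S.card = k},
      (∀ v, IsStable v.1 → v ∈ W) →
      ((kneser n k).induce W).Colorable (n - 2 * k + 2) ∧
        HasCliqueMinor ((kneser n k).induce W) (n - 2 * k + 2)) ∧
    (∀ n k s : ℕ, 1 ≤ s → ∀ W : Set {S : Finset (Fin n) // S.card = k},
      (∀ v, IsStable v.1 → v ∈ W) →
      ¬ HasCliqueMinor ((kneser n k).induce W) (s + 1) →
      ((kneser n k).induce W).Colorable s) := by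
  refine ⟨fun n k hk hn W hW => ⟨colorable_induce W _ (kneser_colorable n k hk hn),
    stable_minor_all n k hk hn W hW⟩, ?_⟩
  intro n k s hs W hW hminor
  by_cases h : 1 ≤ k ∧ 2 * k ≤ n
  · have hle : n - 2 * k + 2 ≤ s := by
      by_contra hlt
      exact hminor (minor_mono (by omega) (stable_minor_all n k h.1 h.2 W hW))
    exact colorable_induce W _ ((kneser_colorable n k h.1 h.2).mono hle)
  · exact colorable_induce W _ (kneser_colorable_of_not n k s hs h)

end Vale.Agent.Results.P060.KneserStable
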